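import Vale.Agent.P162.Eig

/-! # Eigenvalues of `KK` on the levels, for `m` slots with `card X ≤ 4 m` -/

namespace Vale.Agent.P162

open Finset Equiv
open scoped RealInnerProductSpace

noncomputable section

variable {A : Type*} [Fintype A] [DecidableEq A]
variable {H : Type*} [NormedAddCommGroup H] [InnerProductSpace ℝ H] [FiniteDimensional ℝ H]
variable {ρ : Perm A →* (H →ₗ[ℝ] H)}
variable {X : Type*} [Fintype X] [DecidableEq X]

theorem high2 (hρ : ∀ g v, ‖ρ g v‖ = ‖v‖) {j : A → X} (hj : Function.Injective j)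
    (hX : Fintype.card X ≤ 4 * Fintype.card A) (q : ℕ) (hq : 4 * q ≤ Fintype.card A)
    (F : H) (hF : F ∈ lev ρ univ q) (l : List (X × X)) (hl : (flat l).Nodup)
    (hL : 16 * l.length ≤ Fintype.card A) :
    avgP (fun g : Perm X => ‖Pl ρ (swl (g ∘ j) l) F‖ ^ 2) ≤
      (1 - 49 / 4096) ^ l.length * ‖F‖ ^ 2 := by
  have hM : (0 : ℝ) < Fintype.card (Perm X) := by
    exact_mod_cast Fintype.card_pos
  induction l with
  | nil =>
    unfold avgP
    simp [swl, Pl]
  | cons p l ih =>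
    have hflat : flat (p :: l) = p.1 :: p.2 :: flat l := by simp [flat]
    rw [hflat, List.nodup_cons, List.nodup_cons] at hl
    obtain ⟨hp1, hp2, hnd⟩ := hl
    have hp12 : p.1 ≠ p.2 := by
      intro h
      exact hp1 (by rw [h]; simp)
    have hp1l : p.1 ∉ flat l := fun h => hp1 (by simp [h])
    have hlen : (flat l).length = 2 * l.length := by
      unfold flat
      rw [List.length_flatMap]
      simp
      ring
    rw [List.length_cons] at hL
    have ih' := ih hnd (by omega)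
    set G : Perm X → H := fun g => Pl ρ (swl (g ∘ j) l) F with hG
    set S : Finset X := (flat l).toFinset with hS
    have hScard : 8 * S.card ≤ Fintype.card A := by
      have h1 : S.card ≤ (flat l).length := List.toFinset_card_le (flat l)
      rw [hlen] at h1
      omega
    have hp1S : p.1 ∉ S := by rw [hS, List.mem_toFinset]; exact hp1l
    have hp2S : p.2 ∉ S := by rw [hS, List.mem_toFinset]; exact hp2
    have hginj : ∀ g : Perm X, Function.Injective (g ∘ j) := fun g => g.injective.comp hj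
    have hGinv : ∀ (r g : Perm X), (∀ x ∈ S, r x = x) → G (r * g) = G g := by
      intro r g hr
      simp only [hG]
      have : ⇑(r * g) ∘ j = r ∘ (g ∘ j) := rfl
      rw [this, hi_swl_comp (hginj g) r l]
      intro x hx
      exact hr x (by rw [hS, List.mem_toFinset]; exact hx)
    -- the defect
    set D : X × X → Perm X → ℝ := fun z g =>
      ‖G g‖ ^ 2 - ⟪G g, ρ (sw (g ∘ j) z.1 z.2) (G g)⟫ with hD
    have hDeq : ∀ z ∈ Sᶜ.offDiag, ∑ g, D z g = ∑ g, D p g := by
      intro z hz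
      rw [Finset.mem_offDiag, Finset.mem_compl, Finset.mem_compl] at hz
      obtain ⟨r, hr1, hr2, hr3⟩ := hi_exists_perm S hp1S hp2S hz.1 hz.2.1 hp12 hz.2.2
      refine Fintype.sum_equiv (Equiv.mulLeft r) _ _ ?_
      intro g
      simp only [Equiv.coe_mulLeft, hD]
      rw [hGinv r g hr3]
      have h1 : ⇑(r * g) ∘ j = r ∘ (g ∘ j) := rfl
      rw [h1, ← hr1, ← hr2, hi_sw_comp (hginj g)]
    have hlow : ∀ g, 49 / 128 * (Fintype.card A : ℝ) ^ 2 * ‖G g‖ ^ 2 ≤
        ∑ z ∈ Sᶜ.offDiag, D z g := by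
      intro g
      exact hi_local hρ (hginj g) q hq S hScard (G g) (Pl_mem_lev _ hF)
    have hsum : 49 / 128 * (Fintype.card A : ℝ) ^ 2 * ∑ g, ‖G g‖ ^ 2 ≤
        (Sᶜ.offDiag.card : ℝ) * ∑ g, D p g := by
      rw [← nsmul_eq_mul, ← Finset.sum_const, ← Finset.sum_congr rfl hDeq, Finset.sum_comm,
        Finset.mul_sum]
      exact Finset.sum_le_sum fun g _ => hlow g
    have hDnn : 0 ≤ ∑ g, D p g := Finset.sum_nonneg fun g _ => hi_defect_nonneg hρ _ _
    have hcard : (Sᶜ.offDiag.card : ℝ) ≤ 16 * (Fintype.card A : ℝ) ^ 2 := by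
      have h1 : Sᶜ.offDiag.card ≤ Fintype.card X * Fintype.card X := by
        rw [Finset.offDiag_card]
        have h2 : Sᶜ.card ≤ Fintype.card X := Finset.card_le_univ _
        calc Sᶜ.card * Sᶜ.card - Sᶜ.card ≤ Sᶜ.card * Sᶜ.card := Nat.sub_le _ _
          _ ≤ Fintype.card X * Fintype.card X := Nat.mul_le_mul h2 h2
      have h3 : (Sᶜ.offDiag.card : ℝ) ≤ (Fintype.card X : ℝ) * Fintype.card X := by
        exact_mod_cast h1
      have h4 : (Fintype.card X : ℝ) ≤ 4 * Fintype.card A := by exact_mod_cast hX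
      have h5 : (0 : ℝ) ≤ Fintype.card X := Nat.cast_nonneg _
      nlinarith
    have hApos : (0 : ℝ) < (Fintype.card A : ℝ) ^ 2 := by
      have : 0 < Fintype.card A := by omega
      positivity
    have hmain : 49 / 2048 * ∑ g, ‖G g‖ ^ 2 ≤ ∑ g, D p g := by
      have h1 : 49 / 128 * (Fintype.card A : ℝ) ^ 2 * ∑ g, ‖G g‖ ^ 2 ≤
          16 * (Fintype.card A : ℝ) ^ 2 * ∑ g, D p g :=
        hsum.trans (mul_le_mul_of_nonneg_right hcard hDnn)
      have h2 : 16 * (Fintype.card A : ℝ) ^ 2 * (49 / 2048 * ∑ g, ‖G g‖ ^ 2) ≤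
          16 * (Fintype.card A : ℝ) ^ 2 * ∑ g, D p g := by
        calc _ = 49 / 128 * (Fintype.card A : ℝ) ^ 2 * ∑ g, ‖G g‖ ^ 2 := by ring
          _ ≤ _ := h1
      exact le_of_mul_le_mul_left h2 (by positivity)
    have hhalf : ∑ g : Perm X, ‖Pl ρ (swl (g ∘ j) (p :: l)) F‖ ^ 2 =
        ∑ g, ‖G g‖ ^ 2 - (∑ g, D p g) / 2 := by
      rw [Finset.sum_div, ← Finset.sum_sub_distrib]
      refine Finset.sum_congr rfl ?_
      intro g _
      have h1 : Pl ρ (swl (g ∘ j) (p :: l)) F = half ρ (sw (g ∘ j) p.1 p.2) (G g) := rfl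
      rw [h1, norm_half_sq hρ]
    unfold avgP at ih' ⊢
    rw [div_le_iff₀ hM] at ih' ⊢
    have hc0 : (0 : ℝ) ≤ 1 - 49 / 4096 := by norm_num
    calc ∑ g : Perm X, ‖Pl ρ (swl (g ∘ j) (p :: l)) F‖ ^ 2
        = ∑ g, ‖G g‖ ^ 2 - (∑ g, D p g) / 2 := hhalf
      _ ≤ (1 - 49 / 4096) * ∑ g, ‖G g‖ ^ 2 := by linarith
      _ ≤ (1 - 49 / 4096) * ((1 - 49 / 4096) ^ l.length * ‖F‖ ^ 2 *
          (Fintype.card (Perm X) : ℝ)) := mul_le_mul_of_nonneg_left ih' hc0
      _ = (1 - 49 / 4096) ^ (p :: l).length * ‖F‖ ^ 2 * (Fintype.card (Perm X) : ℝ) := by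
          rw [List.length_cons, pow_succ]
          ring


omit [FiniteDimensional ℝ H] in
/-- high degree -/
lemma eig_high2 [FiniteDimensional ℝ H]
    (hρ : ∀ g v, ‖ρ g v‖ = ‖v‖) {j : A → X} (hj : Function.Injective j)
    (hX : Fintype.card X ≤ 4 * Fintype.card A) (l : List (X × X)) (hl : (flat l).Nodup)
    (hL : 64 * l.length = Fintype.card X) (q : ℕ) (hq : 4 * q ≤ Fintype.card A)
    (F : H) (hF : F ∈ lev ρ univ q) (hF0 : F ≠ 0) (μ : ℝ) (hμ : KK ρ j l F = μ • F) :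
    |μ| ≤ (1 - 1 / 8192) ^ (Fintype.card A - q) := by
  have h1 := high2 hρ hj hX q hq F hF l hl (by omega)
  rw [← KK_inner hρ hj l hl F, hμ, real_inner_smul_right, real_inner_self_eq_norm_sq] at h1
  have h2 := KK_pow_nonneg hρ hj l hl F 1
  rw [pow_one, hμ, real_inner_smul_right, real_inner_self_eq_norm_sq] at h2
  have hpos : 0 < ‖F‖ ^ 2 := by positivity
  have h3 : 0 ≤ μ := by
    by_contra h
    have := mul_neg_of_neg_of_pos (not_le.mp h) hpos
    linarith
  have h4 : μ ≤ (1 - 49 / 4096) ^ l.length := le_of_mul_le_mul_right h1 hpos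
  rw [abs_of_nonneg h3]
  refine h4.trans ?_
  have h5 : (1 - 49 / 4096 : ℝ) ≤ (1 - 1 / 8192) ^ 64 := by norm_num
  have h6 : (1 - 49 / 4096 : ℝ) ^ l.length ≤ ((1 - 1 / 8192) ^ 64) ^ l.length :=
    pow_le_pow_left₀ (by norm_num) h5 _
  refine h6.trans ?_
  rw [← pow_mul]
  have hAX : Fintype.card A ≤ Fintype.card X := Fintype.card_le_of_injective j hj
  apply pow_le_pow_of_le_one (by norm_num) (by norm_num)
  omega

omit [FiniteDimensional ℝ H] in
/-- low degree -/
lemma eig_low2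
    (hρ : ∀ g v, ‖ρ g v‖ = ‖v‖) {j : A → X} (hj : Function.Injective j)
    (hX : Fintype.card X ≤ 4 * Fintype.card A) (l : List (X × X)) (hl : (flat l).Nodup)
    (hL : 64 * l.length = Fintype.card X) (q : ℕ) (hq : Fintype.card A ≤ 4 * q)
    (F : H) (hF : F ∈ lev ρ univ q) (Z : Finset A) (hZc : Z.card = q) (hZ : Qop ρ Z F ≠ 0)
    (μ : ℝ) (hμ : KK ρ j l F = μ • F) :
    |μ| ≤ (1 - 1 / 8192) ^ (Fintype.card A - q) := by
  classical
  set v := Qop ρ Z F with hv
  have hKv : KK ρ j l v = μ • v := by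
    rw [hv, KK_Qop hj l hl, hμ, map_smul]
  have hQv : Qop ρ Z v = v := by rw [hv, Qop_Qop (Finset.Subset.refl Z)]
  have hstar : ∀ x, x ∉ Z → ∑ z ∈ Z, ρ (swap x z) v = -v := fun x hx =>
    star hF (Finset.subset_univ Z) hZc (Finset.mem_univ x) hx
  have hnorm : |μ| * ‖v‖ = ‖Qop ρ Z (KK ρ j l v)‖ := by
    rw [hKv, map_smul, hQv, norm_smul, Real.norm_eq_abs]
  have hcardpos : (0 : ℝ) < (Fintype.card (Perm X) : ℝ) := by
    exact_mod_cast Fintype.card_pos
  -- triangle inequality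
  have h1 : ‖Qop ρ Z (KK ρ j l v)‖ ≤
      avgP (fun g : Perm X => ‖Qop ρ Z (Pl ρ (swl (g ∘ j) l) v)‖) := by
    unfold KK avgP
    rw [LinearMap.smul_apply, LinearMap.sum_apply, map_smul, map_sum, norm_smul, norm_inv,
      Real.norm_of_nonneg hcardpos.le, inv_mul_eq_div]
    exact div_le_div_of_nonneg_right (norm_sum_le _ _) hcardpos.le
  have h2 : avgP (fun g : Perm X => ‖Qop ρ Z (Pl ρ (swl (g ∘ j) l) v)‖) ≤
      avgP (fun g : Perm X => (l.map fun p =>
        if (∃ a, a ∉ Z ∧ (g ∘ j) a = p.1) ∧ (∃ b, b ∈ Z ∧ (g ∘ j) b = p.2)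
        then (3 / 4 : ℝ) else 1).prod * ‖v‖) := by
    unfold avgP
    apply div_le_div_of_nonneg_right _ hcardpos.le
    apply Finset.sum_le_sum
    intro g _
    exact lemmaL_list hρ (g.injective.comp hj) Z v hstar l hl (by omega)
  have h3 : avgP (fun g : Perm X => (l.map fun p =>
        if (∃ a, a ∉ Z ∧ (g ∘ j) a = p.1) ∧ (∃ b, b ∈ Z ∧ (g ∘ j) b = p.2)
        then (3 / 4 : ℝ) else 1).prod * ‖v‖) =
      avgP (fun h : Perm X => (l.map fun p =>
        if h p.1 ∈ (univ \ Z).image j ∧ h p.2 ∈ Z.image j then (3 / 4 : ℝ) else 1).prod) * ‖v‖ := by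
    unfold avgP
    rw [← Finset.sum_mul, mul_div_right_comm]
    congr 2
    refine Fintype.sum_equiv (Equiv.inv (Perm X)) _ _ ?_
    intro g
    congr 1
    apply List.map_congr_left
    intro p _
    have e1 : (∃ a, a ∉ Z ∧ (g ∘ j) a = p.1) ↔ (Equiv.inv (Perm X)) g p.1 ∈ (univ \ Z).image j := by
      rw [Finset.mem_image]
      constructor
      · rintro ⟨a, ha, hga⟩
        refine ⟨a, by simp [ha], ?_⟩
        rw [← hga]
        exact (Equiv.symm_apply_apply g (j a)).symm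
      · rintro ⟨a, ha, hga⟩
        refine ⟨a, by simpa using ha, ?_⟩
        rw [Function.comp_apply, hga]
        exact Equiv.apply_symm_apply g _
    have e2 : (∃ b, b ∈ Z ∧ (g ∘ j) b = p.2) ↔ (Equiv.inv (Perm X)) g p.2 ∈ Z.image j := by
      rw [Finset.mem_image]
      constructor
      · rintro ⟨a, ha, hga⟩
        refine ⟨a, ha, ?_⟩
        rw [← hga]
        exact (Equiv.symm_apply_apply g (j a)).symm
      · rintro ⟨a, ha, hga⟩
        refine ⟨a, ha, ?_⟩
        rw [Function.comp_apply, hga]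
        exact Equiv.apply_symm_apply g _
    simp only [e1, e2]
  have h4 := lowAvg ((univ \ Z).image j) (Z.image j) l hl hL (by
    rw [Finset.card_image_of_injective _ hj]
    omega)
  have h5 : ((univ \ Z).image j).card = Fintype.card A - q := by
    rw [Finset.card_image_of_injective _ hj, Finset.card_sdiff_of_subset (Finset.subset_univ Z),
      Finset.card_univ, hZc]
  rw [h5] at h4
  have hvpos : 0 < ‖v‖ := norm_pos_iff.mpr hZ
  have h6 : |μ| * ‖v‖ ≤ (1 - 1 / 8192) ^ (Fintype.card A - q) * ‖v‖ := by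
    rw [hnorm]
    refine h1.trans (h2.trans ?_)
    rw [h3]
    exact mul_le_mul_of_nonneg_right h4 hvpos.le
  exact le_of_mul_le_mul_right h6 hvpos

theorem eig_bound2 (hρ : ∀ g v, ‖ρ g v‖ = ‖v‖) {j : A → X} (hj : Function.Injective j)
    (hX : Fintype.card X ≤ 4 * Fintype.card A) (l : List (X × X)) (hl : (flat l).Nodup)
    (hL : 64 * l.length = Fintype.card X) (q : ℕ) (F : H) (hF : F ∈ lev ρ univ q)
    (hZ : ∃ Z : Finset A, Z.card = q ∧ Qop ρ Z F ≠ 0) (μ : ℝ) (hμ : KK ρ j l F = μ • F) :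
    |μ| ≤ (1 - 1 / 8192) ^ (Fintype.card A - q) := by
  obtain ⟨Z, hZc, hZ⟩ := hZ
  rcases le_total (4 * q) (Fintype.card A) with hq | hq
  · refine eig_high2 hρ hj hX l hl hL q hq F hF ?_ μ hμ
    rintro rfl
    exact hZ (map_zero _)
  · exact eig_low2 hρ hj hX l hl hL q hq F hF Z hZc hZ μ hμ

end

end Vale.Agent.P162
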