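import Vale.Agent.P162.Proc2
import Vale.Agent.P162.ThmA

/-! # Theorem A for all but `F` cards -/

namespace Vale.Agent.P162

open Finset Equiv

noncomputable section

variable {d : ℕ}

lemma ta2_pos (T : ℕ) {m F : ℕ} (hF : m + F ≤ 2 ^ d) (hF0 : 0 < F) :
    (0 : ℝ) < (1 - F / (8 * 2 ^ d)) ^ (T - d) + (16 * 2 ^ d / F) * (3 / 4) ^ F := by
  have h1 : (F : ℝ) ≤ 2 ^ d := by
    have h : F ≤ 2 ^ d := by omega
    exact_mod_cast h
  have h2 : (0 : ℝ) < F := by exact_mod_cast hF0
  have h3 : (0 : ℝ) < 2 ^ d := by positivity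
  have h4 : (F : ℝ) / (8 * 2 ^ d) ≤ 1 := by
    rw [div_le_one (by positivity)]
    linarith
  have h5 : (0 : ℝ) ≤ (1 - F / (8 * 2 ^ d)) ^ (T - d) := pow_nonneg (by linarith) _
  have h6 : (0 : ℝ) < (16 * 2 ^ d / F) * (3 / 4) ^ F := by positivity
  linarith

lemma ta2_claim1 [NeZero d] (T : ℕ) (hT : d ≤ T) {m F : ℕ} (hF : m + F ≤ 2 ^ d) (hF0 : 0 < F)
    (h : (Fin m → Cube d) × Cube d → ℝ) (hh : ∀ y, |h y| ≤ 1)
    (e : Fin m → Cube d) (x : Cube d) (hx : ∀ i, e i ≠ x) :
    |Kl (dirs d T) h (e, x) - Kl (dirs d T) (Hav h) e|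
      ≤ Real.sqrt (2 ^ d) * Real.sqrt ((1 - F / (8 * 2 ^ d)) ^ (T - d) +
        (16 * 2 ^ d / F) * (3 / 4) ^ F) := by
  have hxf : x ∈ frS e := mem_frS.mpr hx
  have hcard : 0 < (frS e).card := Finset.card_pos.mpr ⟨x, hxf⟩
  have hc : (0 : ℝ) < ((frS e).card : ℝ) := by exact_mod_cast hcard
  have hc1 : (1 : ℝ) ≤ ((frS e).card : ℝ) := by exact_mod_cast hcard
  set q := qx e x with hq
  have hq0 : ∀ i, q (e i) = 0 := by
    intro i
    have h1 : e i ∉ frS e := by
      rw [mem_frS]
      intro h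
      exact h i rfl
    simp only [hq, qx]
    rw [if_neg (hx i), if_neg h1, sub_zero]
  have hqs : ∑ y, q y = 0 := by
    have h1 := qx_sum e (x := x) (fun _ => (1 : ℝ))
    simp only [mul_one, Finset.sum_const, nsmul_eq_mul] at h1
    rw [h1, div_self hc.ne', sub_self]
  have hq2 : ∑ y, q y ^ 2 ≤ 1 := by
    have h1 := qx_sum e (x := x) q
    have h2 : ∑ y ∈ frS e, q y = 0 := by
      rw [← hqs]
      apply Finset.sum_subset (Finset.subset_univ _)
      intro y _ hy
      simp only [hq, qx]
      have hne : y ≠ x := fun h => hy (h ▸ hxf)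
      rw [if_neg hne, if_neg hy, sub_zero]
    rw [h2, zero_div, sub_zero] at h1
    have h3 : ∑ y, q y ^ 2 = q x := by
      rw [← h1]
      apply Finset.sum_congr rfl
      intro y _
      rw [pow_two]
    rw [h3]
    simp only [hq, qx]
    rw [if_pos trivial, if_pos hxf]
    have : 0 ≤ ((frS e).card : ℝ)⁻¹ := by positivity
    linarith
  have hlin := Ml_linear (dirs d T) h e q hq0
  have e1 : ∑ y, q y * Kl (dirs d T) h (e, y)
      = Kl (dirs d T) h (e, x) - Kl (dirs d T) (Hav h) e := by
    rw [← Hav_Kl]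
    exact qx_sum e (fun y => Kl (dirs d T) h (e, y))
  rw [e1] at hlin
  rw [← hlin]
  set δ : ℝ := (1 - F / (8 * 2 ^ d)) ^ (T - d) + (16 * 2 ^ d / F) * (3 / 4) ^ F with hδ
  have hδ0 : 0 < δ := ta2_pos T hF hF0
  set D : ℝ := 2 ^ d with hD
  have hD0 : 0 < D := by positivity
  set lam : ℝ := Real.sqrt D / Real.sqrt δ with hlam
  have hlam0 : 0 < lam := div_pos (Real.sqrt_pos.mpr hD0) (Real.sqrt_pos.mpr hδ0)
  have hpt : ∀ (e : Fin m → Cube d) (q : Cube d → ℝ),
      |∑ x, q x * h (e, x)| ≤ lam / 2 * (∑ x, q x ^ 2) + D / (2 * lam) := by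
    intro e q
    calc |∑ x, q x * h (e, x)| ≤ ∑ x, |q x * h (e, x)| := Finset.abs_sum_le_sum_abs _ _
      _ ≤ ∑ x : Cube d, (lam / 2 * q x ^ 2 + 1 / (2 * lam)) := by
          apply Finset.sum_le_sum
          intro x _
          have h1 : |q x * h (e, x)| ≤ |q x| := by
            rw [abs_mul]
            exact mul_le_of_le_one_right (abs_nonneg _) (hh _)
          have h2 : |q x| ≤ lam / 2 * q x ^ 2 + 1 / (2 * lam) := by
            have h3 : 0 ≤ (lam * |q x| - 1) ^ 2 / (2 * lam) := by positivity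
            have h4 : (lam * |q x| - 1) ^ 2 / (2 * lam)
                = lam / 2 * q x ^ 2 + 1 / (2 * lam) - |q x| := by
              rw [← sq_abs (q x)]
              field_simp
              ring
            linarith
          exact h1.trans h2
      _ = _ := by
          rw [Finset.sum_add_distrib, ← Finset.mul_sum, Finset.sum_const, nsmul_eq_mul]
          congr 1
          have : (Finset.univ : Finset (Cube d)).card = 2 ^ d := by
            rw [Finset.card_univ, Fintype.card_fun, ZMod.card, Fintype.card_fin]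
          rw [this, hD]
          push_cast
          ring
  have hup : Ml (dirs d T) (fun e q => lam / 2 * (∑ x, q x ^ 2) + D / (2 * lam)) e q
      ≤ Real.sqrt D * Real.sqrt δ := by
    rw [ta_Ml_lin (dirs d T) (lam / 2) (D / (2 * lam)) (fun _ q => ∑ x, q x ^ 2)]
    have h1 := Ml_decay2 T hT F hF hF0 e q hq0 hqs
    have h2 : Ml (dirs d T) (fun _ q => ∑ x, q x ^ 2) e q ≤ δ := by
      refine h1.trans ?_
      rw [← hδ]
      calc δ * ∑ y, q y ^ 2 ≤ δ * 1 := mul_le_mul_of_nonneg_left hq2 hδ0.le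
        _ = δ := mul_one _
    have sD : Real.sqrt D * Real.sqrt D = D := Real.mul_self_sqrt hD0.le
    have sδ : Real.sqrt δ * Real.sqrt δ = δ := Real.mul_self_sqrt hδ0.le
    have pD : 0 < Real.sqrt D := Real.sqrt_pos.mpr hD0
    have pδ : 0 < Real.sqrt δ := Real.sqrt_pos.mpr hδ0
    calc lam / 2 * Ml (dirs d T) (fun _ q => ∑ x, q x ^ 2) e q + D / (2 * lam)
        ≤ lam / 2 * δ + D / (2 * lam) := by gcongr
      _ = Real.sqrt D * Real.sqrt δ := by
          have e2 : lam / 2 * δ = Real.sqrt D * Real.sqrt δ / 2 := by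
            rw [hlam]
            nth_rewrite 2 [← sδ]
            field_simp
          have e3 : D / (2 * lam) = Real.sqrt D * Real.sqrt δ / 2 := by
            rw [hlam]
            nth_rewrite 1 [← sD]
            field_simp
          rw [e2, e3]
          ring
  rw [abs_le]
  constructor
  · have h1 := ta_Ml_mono (dirs d T)
      (Ψ := fun e q => (-1) * (lam / 2 * (∑ x, q x ^ 2) + D / (2 * lam)) + 0)
      (Φ := fun e q => ∑ x, q x * h (e, x)) (fun e q => by
        have := (abs_le.mp (hpt e q)).1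
        linarith) e q
    rw [ta_Ml_lin (dirs d T) (-1) 0
      (fun e q => lam / 2 * (∑ x, q x ^ 2) + D / (2 * lam))] at h1
    linarith
  · exact (ta_Ml_mono (dirs d T) (fun e q => (abs_le.mp (hpt e q)).2) e q).trans hup

theorem thmA2 [NeZero d] (T : ℕ) (hT : d ≤ T) (m F : ℕ) (hF : m + F ≤ 2 ^ d) (hF0 : 0 < F)
    (f : (Fin m → Cube d) → ℝ) (hf : ∀ e, |f e| ≤ 1)
    (j e : Fin m → Cube d) (hj : Function.Injective j) (he : Function.Injective e) :
    |Kl (dirs d T) f e - avgP (fun g : Perm (Cube d) => f (g ∘ j))| ≤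
      m * (Real.sqrt (2 ^ d) *
        Real.sqrt ((1 - F / (8 * 2 ^ d)) ^ (T - d) + (16 * 2 ^ d / F) * (3 / 4) ^ F)) := by
  induction m with
  | zero =>
    have h1 : f = fun _ => f e := by
      funext e'
      congr 1
      exact Subsingleton.elim _ _
    have h2 : Kl (dirs d T) f e = f e := by
      conv_lhs => rw [h1]
      exact Kl_const _ _ _
    have h3 : avgP (fun g : Perm (Cube d) => f (g ∘ j)) = f e := by
      have h4 : ∀ g : Perm (Cube d), f (g ∘ j) = f e := by
        intro g
        congr 1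
        exact Subsingleton.elim _ _
      unfold avgP
      simp only [h4]
      rw [Finset.sum_const, nsmul_eq_mul, Finset.card_univ, mul_div_cancel_left₀]
      have : 0 < Fintype.card (Perm (Cube d)) := Fintype.card_pos
      exact_mod_cast this.ne'
    rw [h2, h3]
    simp
  | succ m ih =>
    set h : (Fin m → Cube d) × Cube d → ℝ :=
      fun y => f (Fin.snoc (α := fun _ => Cube d) y.1 y.2) with hh
    have hh1 : ∀ y, |h y| ≤ 1 := fun y => hf _
    have hinit : ∀ e : Fin (m + 1) → Cube d, Function.Injective e →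
        Function.Injective (Fin.init e : Fin m → Cube d) := by
      intro e he a b hab
      have h1 : e (Fin.castSucc a) = e (Fin.castSucc b) := hab
      exact Fin.castSucc_injective m (he h1)
    have e1 : Kl (dirs d T) f e = Kl (dirs d T) h (Fin.init e, e (Fin.last m)) := by
      have h1 := Kl_comp (Y := (Fin m → Cube d) × Cube d) (Y' := Fin (m + 1) → Cube d)
        (fun y => Fin.snoc (α := fun _ => Cube d) y.1 y.2) (by
          intro g y
          funext i
          refine Fin.lastCases ?_ (fun i => ?_) i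
          · rw [Fin.snoc_last]
            show g • y.2 = g • (Fin.snoc (α := fun _ => Cube d) y.1 y.2 (Fin.last m))
            rw [Fin.snoc_last]
          · rw [Fin.snoc_castSucc]
            show g • y.1 i = g • (Fin.snoc (α := fun _ => Cube d) y.1 y.2 (Fin.castSucc i))
            rw [Fin.snoc_castSucc]) (dirs d T) f (Fin.init e, e (Fin.last m))
      rw [hh, h1]
      congr 1
      exact (Fin.snoc_init_self e).symm
    have c1 := ta2_claim1 T hT (by omega : m + F ≤ 2 ^ d) hF0 h hh1 (Fin.init e) (e (Fin.last m))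
      (by
        intro i hi
        have h1 : e (Fin.castSucc i) = e (Fin.last m) := hi
        exact absurd (he h1) (Fin.castSucc_lt_last i).ne)
    have c2 := ih (by omega) (Hav h) (abs_Hav_le hh1) (Fin.init j) (Fin.init e) (hinit j hj)
      (hinit e he)
    have c3 := ta_claim3 f j hj
    rw [← hh] at c3
    rw [c3] at c2
    rw [e1]
    set ε := Real.sqrt (2 ^ d) *
      Real.sqrt ((1 - F / (8 * 2 ^ d)) ^ (T - d) + (16 * 2 ^ d / F) * (3 / 4) ^ F) with hε
    calc |Kl (dirs d T) h (Fin.init e, e (Fin.last m))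
          - avgP (fun g : Perm (Cube d) => f (g ∘ j))|
        ≤ |Kl (dirs d T) h (Fin.init e, e (Fin.last m)) - Kl (dirs d T) (Hav h) (Fin.init e)|
          + |Kl (dirs d T) (Hav h) (Fin.init e)
            - avgP (fun g : Perm (Cube d) => f (g ∘ j))| := abs_sub_le _ _ _
      _ ≤ ε + m * ε := add_le_add c1 c2
      _ = _ := by
          push_cast
          ring

end

end Vale.Agent.P162
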